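import Vale.Agent.P347.Quarter.Gauss

/-!
# P347: change of variables for tilted Gaussian laws
-/

open MeasureTheory ProbabilityTheory Real
open scoped RealInnerProductSpace ENNReal

namespace Vale.Agent.P347.Quarter

variable {d : ℕ}

/-- The pullback potential of `Φ` under `T`. -/
noncomputable def pull (T : Sp d → Sp d) (T' : Sp d → Sp d →L[ℝ] Sp d) (Φ : Sp d → ℝ)
    (x : Sp d) : ℝ :=
  Φ (T x) + (‖T x‖ ^ 2 - ‖x‖ ^ 2) / 2 - Real.log (T' x).det

theorem map_gibbs_change {T : Sp d → Sp d} {T' : Sp d → Sp d →L[ℝ] Sp d}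
    (hT : ∀ x, HasFDerivAt T (T' x) x) (hb : Function.Bijective T) (hdet : ∀ x, (T' x).det ≠ 0)
    {Φ : Sp d → ℝ} (hΦ : Continuous Φ) (hr : Continuous (pull T T' Φ)) :
    (gibbs (pull T T' Φ)).map T = gibbs Φ := by
  set r := pull T T' Φ
  have hTc : Continuous T := continuous_iff_continuousAt.2 fun x => (hT x).continuousAt
  have hdens : ∀ x, gdensity x * exp (-r x) = |(T' x).det| * (gdensity (T x) * exp (-Φ (T x))) := by
    intro x
    have e1 : exp (-(1 / 2) * ‖x‖ ^ 2) * exp (-r x)
        = |(T' x).det| * (exp (-(1 / 2) * ‖T x‖ ^ 2) * exp (-Φ (T x))) := by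
      rw [← exp_log_eq_abs (hdet x), ← exp_add, ← exp_add, ← exp_add]
      congr 1
      simp only [r, pull]
      ring
    unfold gdensity
    linear_combination ((√(2 * π))⁻¹ ^ Fintype.card (Fin d)) * e1
  have hw : ∀ x ∈ (Set.univ : Set (Sp d)), HasFDerivWithinAt T (T' x) Set.univ x :=
    fun x _ => (hT x).hasFDerivWithinAt
  have himg : T '' Set.univ = Set.univ := Set.image_univ_of_surjective hb.2
  have hZ : ∫ x, exp (-r x) ∂gd d = ∫ y, exp (-Φ y) ∂gd d := by
    rw [integral_gam, integral_gam]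
    have h := integral_image_eq_integral_abs_det_fderiv_smul volume MeasurableSet.univ hw
      hb.1.injOn (fun y => gdensity y * exp (-Φ y))
    rw [himg, setIntegral_univ, setIntegral_univ] at h
    rw [h]
    exact integral_congr_ae (ae_of_all _ fun x => by simp only [smul_eq_mul, hdens])
  refine Measure.ext_of_lintegral _ fun f hf => ?_
  have hmg : Measurable fun x : Sp d => ENNReal.ofReal (gdensity x) :=
    continuous_gdensity.measurable.ennreal_ofReal
  set Z := ∫ y, exp (-Φ y) ∂gd d
  rw [lintegral_map hf hTc.measurable]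
  simp only [gibbs, lintegral_tilted, hZ, show ∫ y, exp (-Φ y) ∂gd d = Z from rfl]
  clear_value Z
  rw [gd, gam_eq_withDensity, lintegral_withDensity_eq_lintegral_mul _ hmg
      (g := fun x => ENNReal.ofReal (exp (-r x) / Z) * f (T x))
      (((hr.neg.rexp).div_const Z).measurable.ennreal_ofReal.mul (hf.comp hTc.measurable)),
    lintegral_withDensity_eq_lintegral_mul _ hmg
      (g := fun y => ENNReal.ofReal (exp (-Φ y) / Z) * f y)
      (((hΦ.neg.rexp).div_const Z).measurable.ennreal_ofReal.mul hf)]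
  conv_rhs => rw [← setLIntegral_univ, ← himg,
    lintegral_image_eq_lintegral_abs_det_fderiv_mul volume MeasurableSet.univ hw hb.1.injOn,
    setLIntegral_univ]
  refine lintegral_congr fun x => ?_
  simp only [Pi.mul_apply]
  rw [← mul_assoc, ← ENNReal.ofReal_mul (gdensity_pos x).le, ← mul_assoc, ← mul_assoc,
    ← ENNReal.ofReal_mul (abs_nonneg _),
    ← ENNReal.ofReal_mul (mul_nonneg (abs_nonneg _) (gdensity_pos _).le)]
  congr 2
  rw [← mul_div_assoc, ← mul_div_assoc, hdens, mul_assoc]

end Vale.Agent.P347.Quarter
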