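import Vale.Agent.P347.Quarter.Defs

/-!
# P347: the derivative of the logarithm of a determinant
-/

open Real
open scoped RealInnerProductSpace

namespace Vale.Agent.P347.Quarter

variable {d : ℕ}

/-- The entries of a linear map in the standard basis. -/
noncomputable def ent (L : Sp d →L[ℝ] Sp d) : Matrix (Fin d) (Fin d) ℝ :=
  fun i j => L (EuclideanSpace.basisFun (Fin d) ℝ j) i

lemma clm_det_eq_ent (L : Sp d →L[ℝ] Sp d) : L.det = (ent L).det := by
  rw [ContinuousLinearMap.det, ← LinearMap.det_toMatrix (EuclideanSpace.basisFun (Fin d) ℝ).toBasis]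
  congr 1
  ext i j
  simp [ent, LinearMap.toMatrix_apply]

lemma contDiff_clm_det : ContDiff ℝ 1 fun L : Sp d →L[ℝ] Sp d => L.det := by
  simp only [clm_det_eq_ent, Matrix.det_apply', ent]
  refine ContDiff.sum fun σ _ => contDiff_const.mul (contDiff_prod fun i _ => ?_)
  exact ((EuclideanSpace.proj (𝕜 := ℝ) (σ i)).comp
    (ContinuousLinearMap.apply ℝ (Sp d) (EuclideanSpace.basisFun (Fin d) ℝ i))).contDiff

/-- The derivative of the determinant at the identity is the trace. -/
lemma fderiv_clm_det_one (N : Sp d →L[ℝ] Sp d) :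
    fderiv ℝ (fun L : Sp d →L[ℝ] Sp d => L.det) 1 N =
      ∑ i, ⟪EuclideanSpace.basisFun (Fin d) ℝ i, N (EuclideanSpace.basisFun (Fin d) ℝ i)⟫ := by
  set f := fun L : Sp d →L[ℝ] Sp d => L.det
  set p : Polynomial ℝ := Matrix.det (1 + (Polynomial.X : Polynomial ℝ) • (ent N).map Polynomial.C)
  have hpt : (fun t : ℝ => f (1 + t • N)) = fun t => p.eval t := by
    funext t
    simp only [f, p, clm_det_eq_ent, ← Polynomial.coe_evalRingHom, RingHom.map_det]
    congr 1
    ext i j
    rcases eq_or_ne i j with rfl | hij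
    · simp [ent, mul_comm t]
    · simp [ent, hij, mul_comm t]
  have h1 : HasDerivAt (fun t : ℝ => (1 : Sp d →L[ℝ] Sp d) + t • N) N 0 := by
    simpa using ((hasDerivAt_id (0:ℝ)).smul_const N).const_add 1
  have h2 : HasFDerivAt f (fderiv ℝ f 1) ((1 : Sp d →L[ℝ] Sp d) + (0:ℝ) • N) := by
    rw [zero_smul ℝ N, add_zero]
    exact ((contDiff_clm_det (d := d)).differentiable one_ne_zero 1).hasFDerivAt
  have h3 : HasDerivAt (fun t : ℝ => p.eval t) (fderiv ℝ f 1 N) 0 := by
    rw [← hpt]
    exact h2.comp_hasDerivAt (0:ℝ) h1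
  rw [h3.unique (p.hasDerivAt 0), Matrix.derivative_det_one_add_X_smul, Matrix.trace]
  refine Finset.sum_congr rfl fun i _ => ?_
  simp [ent, EuclideanSpace.inner_single_left]

/-- The derivative of `x ↦ log |det (1 - D x)|` for a contraction `D`. -/
theorem hasFDerivAt_logdet {X : Type*} [NormedAddCommGroup X] [NormedSpace ℝ X]
    {D : X → Sp d →L[ℝ] Sp d} (hD : ContDiff ℝ 1 D) (h1 : ∀ x, ‖D x‖ ≤ 1 / 2) :
    ContDiff ℝ 1 (fun x => Real.log (1 - D x).det) ∧ ∀ x, ∃ M : Sp d →L[ℝ] Sp d,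
      (1 - D x).det ≠ 0 ∧ ‖M - 1‖ ≤ 2 * ‖D x‖ ∧
      ∀ u, fderiv ℝ (fun y => Real.log (1 - D y).det) x u =
        -∑ i, ⟪EuclideanSpace.basisFun (Fin d) ℝ i,
          M (fderiv ℝ D x u (EuclideanSpace.basisFun (Fin d) ℝ i))⟫ := by
  have key : ∀ x, ∃ M : Sp d →L[ℝ] Sp d, (1 - D x) * M = 1 ∧ M * (1 - D x) = 1 := fun x =>
    ⟨_, (Units.oneSub (D x) ((h1 x).trans_lt (by norm_num))).mul_inv,
      (Units.oneSub (D x) ((h1 x).trans_lt (by norm_num))).inv_mul⟩
  have hdet : ∀ x, (1 - D x).det ≠ 0 := fun x => by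
    obtain ⟨M, hM, -⟩ := key x
    intro h
    have h' := congrArg (fun L : Sp d →L[ℝ] Sp d => L.det) hM
    simp only [ContinuousLinearMap.det] at h h'
    rw [ContinuousLinearMap.mul_def, ContinuousLinearMap.toLinearMap_comp, LinearMap.det_comp, h]
      at h'
    simp at h'
  have hc : ContDiff ℝ 1 (fun x => (1 - D x).det) :=
    contDiff_clm_det.comp (contDiff_const.sub hD)
  refine ⟨hc.log hdet, fun x => ?_⟩
  obtain ⟨M, hM, hM'⟩ := key x
  refine ⟨M, hdet x, ?_, fun u => ?_⟩
  · have e : M - 1 = D x * M := by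
      rw [sub_mul, one_mul, sub_eq_iff_eq_add] at hM
      exact sub_eq_iff_eq_add'.2 hM
    have hn : ‖M‖ ≤ 2 := by
      have h2 : M = 1 + D x * M := by rw [← e]; abel
      have h3 : ‖M‖ ≤ 1 + 1 / 2 * ‖M‖ := by
        calc ‖M‖ = ‖1 + D x * M‖ := by rw [← h2]
          _ ≤ _ := (norm_add_le _ _).trans (add_le_add ContinuousLinearMap.norm_id_le
              ((norm_mul_le _ _).trans (mul_le_mul_of_nonneg_right (h1 x) (norm_nonneg _))))
      linarith
    rw [e]
    exact (norm_mul_le _ _).trans (by nlinarith [norm_nonneg (D x)])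
  · have hDd : HasFDerivAt D (fderiv ℝ D x) x := (hD.differentiable one_ne_zero x).hasFDerivAt
    set c := (1 - D x).det
    have hfun : (fun y => (1 - D y).det) = fun y => c * (M * (1 - D y)).det := by
      funext y
      have h' := congrArg (fun L : Sp d →L[ℝ] Sp d => L.det) hM
      simp only [ContinuousLinearMap.det] at h'
      simp only [c, ContinuousLinearMap.det, ContinuousLinearMap.mul_def,
        ContinuousLinearMap.toLinearMap_comp, LinearMap.det_comp] at h' ⊢
      rw [← mul_assoc, h']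
      simp
    have h4 : HasFDerivAt (fun y => M * (1 - D y))
        ((ContinuousLinearMap.compL ℝ (Sp d) (Sp d) (Sp d) M).comp (-fderiv ℝ D x)) x :=
      (ContinuousLinearMap.compL ℝ (Sp d) (Sp d) (Sp d) M).hasFDerivAt.comp x (hDd.const_sub 1)
    have h5 : HasFDerivAt (fun L : Sp d →L[ℝ] Sp d => L.det)
        (fderiv ℝ (fun L : Sp d →L[ℝ] Sp d => L.det) 1) (M * (1 - D x)) := by
      rw [hM']
      exact ((contDiff_clm_det (d := d)).differentiable one_ne_zero 1).hasFDerivAt
    have h6 := ((h5.comp x h4).const_mul c)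
    simp only [Function.comp_def] at h6
    rw [← hfun] at h6
    rw [(h6.log (hdet x)).fderiv]
    simp only [smul_apply, ContinuousLinearMap.comp_apply, neg_apply,
      ContinuousLinearMap.compL_apply, smul_eq_mul, fderiv_clm_det_one, ← Finset.sum_neg_distrib]
    rw [← mul_assoc, inv_mul_cancel₀ (hdet x), one_mul]
    refine Finset.sum_congr rfl fun i _ => ?_
    simp

end Vale.Agent.P347.Quarter
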