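import Vale.Agent.P347.Quarter.Gauss
import Vale.Agent.P347.Quarter.Smooth

/-!
# P347: second derivatives of a Gaussian average of the gradient

One integration by parts moves a derivative onto the Gaussian weight, so the average of the
gradient is twice differentiable with a symmetric second derivative; Bessel's inequality bounds it
in Frobenius norm.
-/

open MeasureTheory ProbabilityTheory Real Filter
open scoped RealInnerProductSpace

namespace Vale.Agent.P347.Quarter

variable {d : ℕ} {W : Sp d → ℝ} {G : Sp d → Sp d} {H : Sp d → Sp d →L[ℝ] Sp d} {η : ℝ}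

/-- The derivative of `smth a b G`. -/
noncomputable def sD (a b : ℝ) (H : Sp d → Sp d →L[ℝ] Sp d) (x : Sp d) : Sp d →L[ℝ] Sp d :=
  ∫ w, a • H (a • x + b • w) ∂gd d

/-- The derivative of `x ↦ sD a b H x u`. -/
noncomputable def sH (a b : ℝ) (H : Sp d → Sp d →L[ℝ] Sp d) (u x : Sp d) : Sp d →L[ℝ] Sp d :=
  (a ^ 2 / b) • ∫ w, ⟪w, u⟫ • H (a • x + b • w) ∂gd d

lemma integrable_norm_sq_gd : Integrable (fun w : Sp d => ‖w‖ ^ 2) (gd d) :=
  integral_norm_sq.1

lemma integral_norm_le : ∫ w : Sp d, ‖w‖ ∂gd d ≤ √d := by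
  rcases Nat.eq_zero_or_pos d with rfl | hd
  · have h0 : ∀ w : Sp 0, ‖w‖ = 0 := fun w => by simp [Subsingleton.elim w 0]
    simp [h0]
  have hs : 0 < √(d : ℝ) := sqrt_pos.2 (by exact_mod_cast hd)
  have hpt : ∀ w : Sp d, ‖w‖ ≤ (‖w‖ ^ 2 / √d + √d) / 2 := fun w => by
    rw [div_add' _ _ _ hs.ne', div_div, le_div_iff₀ (by positivity)]
    nlinarith [sq_nonneg (‖w‖ - √d)]
  refine (integral_mono integrable_norm_gd
    (((integrable_norm_sq_gd.div_const _).add (integrable_const _)).div_const 2) hpt).trans_eq ?_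
  simp only [Pi.add_apply]
  rw [integral_div, integral_add (integrable_norm_sq_gd.div_const _) (integrable_const _),
    integral_div, integral_norm_sq.2, integral_const, Fintype.card_fin]
  have : (d : ℝ) / √d = √d := by
    rw [div_eq_iff hs.ne', mul_self_sqrt (Nat.cast_nonneg d)]
  simp [this]

lemma integrable_inner_gd (u : Sp d) : Integrable (fun w => ⟪w, u⟫) (gd d) :=
  (IsGaussian.integrable_id (μ := gd d)).inner_const u

lemma integral_abs_inner_le (u : Sp d) : ∫ w, |⟪w, u⟫| ∂gd d ≤ √d * ‖u‖ :=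
  calc ∫ w, |⟪w, u⟫| ∂gd d ≤ ∫ w, ‖w‖ * ‖u‖ ∂gd d :=
        integral_mono (integrable_inner_gd u).abs (integrable_norm_gd.mul_const _)
          fun w => abs_real_inner_le_norm w u
    _ = (∫ w, ‖w‖ ∂gd d) * ‖u‖ := integral_mul_const _ _
    _ ≤ _ := mul_le_mul_of_nonneg_right integral_norm_le (norm_nonneg _)

lemma continuous_hess_shift (hW : IsPot W G H 0 η) (a b : ℝ) (x : Sp d) :
    Continuous fun w => H (a • x + b • w) :=
  hW.contHess.comp (f := fun w => a • x + b • w) (by fun_prop)

lemma integrable_hess_comp (hW : IsPot W G H 0 η) (hη : 0 ≤ η) (a b : ℝ) (x : Sp d) :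
    Integrable (fun w => H (a • x + b • w)) (gd d) :=
  (integrable_const η).mono' (continuous_hess_shift hW a b x).aestronglyMeasurable
    (Eventually.of_forall fun _ => hW.norm_hess hη _)

lemma integrable_inner_hess (hW : IsPot W G H 0 η) (hη : 0 ≤ η) (a b : ℝ) (u x : Sp d) :
    Integrable (fun w => ⟪w, u⟫ • H (a • x + b • w)) (gd d) := by
  refine ((integrable_inner_gd u).abs.mul_const η).mono'
    ((show Continuous fun w : Sp d => ⟪w, u⟫ by fun_prop).smul
      (continuous_hess_shift hW a b x)).aestronglyMeasurable (Eventually.of_forall fun w => ?_)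
  rw [norm_smul, norm_eq_abs]
  exact mul_le_mul_of_nonneg_left (hW.norm_hess hη _) (abs_nonneg _)

lemma integrable_inner_grad (hW : IsPot W G H 0 η) (hη : 0 ≤ η) (a b : ℝ) (u x : Sp d) :
    Integrable (fun w => ⟪w, u⟫ • G (a • x + b • w)) (gd d) := by
  refine (((integrable_norm_gd.mul_const (‖G 0‖ + η * (|a| * ‖x‖))).add
    (integrable_norm_sq_gd.mul_const (η * |b|))).mul_const ‖u‖).mono'
    ((show Continuous fun w : Sp d => ⟪w, u⟫ by fun_prop).smul
      (hW.continuous_grad.comp (f := fun w => a • x + b • w) (by fun_prop))).aestronglyMeasurable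
    (Eventually.of_forall fun w => ?_)
  rw [norm_smul, norm_eq_abs]
  have h1 := abs_real_inner_le_norm w u
  have h2 : ‖G (a • x + b • w)‖ ≤ ‖G 0‖ + η * (|a| * ‖x‖ + |b| * ‖w‖) := by
    refine (hW.norm_grad_le hη _).trans ?_
    gcongr
    exact (norm_add_le _ _).trans (by rw [norm_smul, norm_smul, norm_eq_abs, norm_eq_abs])
  refine (mul_le_mul h1 h2 (norm_nonneg _) (by positivity)).trans_eq ?_
  simp only [Pi.add_apply]
  ring

lemma sD_apply (hW : IsPot W G H 0 η) (hη : 0 ≤ η) (a b : ℝ) (x u : Sp d) :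
    sD a b H x u = ∫ w, a • H (a • x + b • w) u ∂gd d := by
  exact ContinuousLinearMap.integral_apply ((integrable_hess_comp hW hη a b x).smul a) u

lemma sD_symm (hW : IsPot W G H 0 η) (hη : 0 ≤ η) (a b : ℝ) (x u v : Sp d) :
    ⟪sD a b H x u, v⟫ = ⟪u, sD a b H x v⟫ := by
  have hi : ∀ u, Integrable (fun w => a • H (a • x + b • w) u) (gd d) := fun u =>
    (((integrable_hess_comp hW hη a b x).smul a).apply_continuousLinearMap u)
  rw [sD_apply hW hη, sD_apply hW hη, real_inner_comm, ← integral_inner (hi u),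
    ← integral_inner (hi v)]
  refine integral_congr_ae (Eventually.of_forall fun w => ?_)
  simp only [real_inner_smul_right]
  rw [real_inner_comm (H _ u) v, hW.symHess]

lemma norm_sD_le (hW : IsPot W G H 0 η) (hη : 0 ≤ η) (a b : ℝ) (x : Sp d) :
    ‖sD a b H x‖ ≤ |a| * η := by
  refine (norm_integral_le_of_norm_le_const (Eventually.of_forall fun w => ?_)).trans_eq
    (by simp : |a| * η * (gd d).real Set.univ = |a| * η)
  rw [norm_smul, norm_eq_abs]
  exact mul_le_mul_of_nonneg_left (hW.norm_hess hη _) (abs_nonneg a)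

lemma continuous_sD (hW : IsPot W G H 0 η) (hη : 0 ≤ η) (a b : ℝ) : Continuous (sD a b H) :=
  continuous_of_dominated (bound := fun _ => |a| * η)
    (fun x => ((continuous_hess_shift hW a b x).const_smul a).aestronglyMeasurable)
    (fun x => Eventually.of_forall fun w => by
      rw [norm_smul, norm_eq_abs]
      exact mul_le_mul_of_nonneg_left (hW.norm_hess hη _) (abs_nonneg a))
    (integrable_const _)
    (Eventually.of_forall fun w =>
      (hW.contHess.comp (f := fun x => a • x + b • w) (by fun_prop)).const_smul a)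

/-- Integration by parts: a derivative of the average of `G` falls on the weight. -/
lemma sD_ibp (hW : IsPot W G H 0 η) (hη : 0 ≤ η) {a b : ℝ} (hb : b ≠ 0) (x u : Sp d) :
    sD a b H x u = (a / b) • ∫ w, ⟪w, u⟫ • G (a • x + b • w) ∂gd d := by
  refine ext_inner_left ℝ fun e => ?_
  set F : Sp d → ℝ := fun w => ⟪e, G (a • x + b • w)⟫ with hF
  have hd : ∀ w, HasFDerivAt F ((innerSL ℝ e).comp (b • H (a • x + b • w))) w := fun w => by
    have h := (hW.hasHess (a • x + b • w)).comp w
      (((hasFDerivAt_id (𝕜 := ℝ) w).const_smul b).const_add (a • x))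
    refine ((innerSL ℝ e).hasFDerivAt.comp w h).congr_fderiv ?_
    ext z
    simp
  have hcd : ContDiff ℝ 1 F :=
    contDiff_const.inner ℝ (hW.contDiff_grad.comp (by fun_prop))
  set C := ‖e‖ * (‖G 0‖ + η * (|a| * ‖x‖ + |b|) + |b| * η)
  have hexp : ∀ w : Sp d, 1 ≤ exp (1 * ‖w‖) ∧ ‖w‖ ≤ exp (1 * ‖w‖) := fun w => by
    rw [one_mul]
    exact ⟨one_le_exp (norm_nonneg _), by linarith [add_one_le_exp ‖w‖]⟩
  have h0 : ∀ w, |F w| ≤ C * exp (1 * ‖w‖) := fun w => by
    obtain ⟨h1, h2⟩ := hexp w
    refine (abs_real_inner_le_norm _ _).trans ?_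
    rw [mul_assoc]
    refine mul_le_mul_of_nonneg_left ?_ (norm_nonneg e)
    refine (hW.norm_grad_le hη _).trans ?_
    have h3 : ‖a • x + b • w‖ ≤ |a| * ‖x‖ + |b| * ‖w‖ :=
      (norm_add_le _ _).trans (by rw [norm_smul, norm_smul, norm_eq_abs, norm_eq_abs])
    have h4 := norm_nonneg (G 0)
    nlinarith [mul_le_mul_of_nonneg_left h3 hη,
      mul_le_mul_of_nonneg_left h2 (mul_nonneg hη (abs_nonneg b)),
      mul_le_mul_of_nonneg_left h1 (mul_nonneg hη (mul_nonneg (abs_nonneg a) (norm_nonneg x))),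
      mul_le_mul_of_nonneg_left h1 h4, mul_nonneg (mul_nonneg (abs_nonneg b) hη) (exp_pos (1 * ‖w‖)).le]
  have h1 : ∀ w, ‖fderiv ℝ F w‖ ≤ C * exp (1 * ‖w‖) := fun w => by
    obtain ⟨h1, -⟩ := hexp w
    rw [(hd w).fderiv]
    refine le_trans ?_ (le_mul_of_one_le_right (by positivity) h1)
    refine (ContinuousLinearMap.opNorm_comp_le _ _).trans ?_
    rw [innerSL_apply_norm, norm_smul, norm_eq_abs]
    refine mul_le_mul_of_nonneg_left ?_ (norm_nonneg e)
    have := mul_le_mul_of_nonneg_left (hW.norm_hess hη (a • x + b • w)) (abs_nonneg b)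
    nlinarith [norm_nonneg (G 0), mul_nonneg hη (mul_nonneg (abs_nonneg a) (norm_nonneg x)),
      mul_nonneg hη (abs_nonneg b)]
  have key := gauss_ibp hcd h0 h1 u
  have hb' : ∀ w, fderiv ℝ F w u = b * ⟪e, H (a • x + b • w) u⟫ := fun w => by
    rw [(hd w).fderiv]
    simp
  simp only [hb', integral_const_mul] at key
  rw [sD_apply hW hη, real_inner_smul_right,
    ← integral_inner (f := fun w => a • H (a • x + b • w) u)
      (((integrable_hess_comp hW hη a b x).smul a).apply_continuousLinearMap u),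
    ← integral_inner (integrable_inner_grad hW hη a b u x)]
  simp only [real_inner_smul_right, integral_const_mul,
    hF, mul_comm _ ⟪_, u⟫] at key ⊢
  rw [← key]
  field_simp

lemma hasFDerivAt_sD_apply (hW : IsPot W G H 0 η) (hη : 0 ≤ η) {a b : ℝ} (hb : b ≠ 0)
    (u x : Sp d) : HasFDerivAt (fun y => sD a b H y u) (sH a b H u x) x := by
  rw [funext fun y => sD_ibp hW hη hb y u]
  have h : HasFDerivAt (fun y => ∫ w, ⟪w, u⟫ • G (a • y + b • w) ∂gd d)
      (∫ w, ⟪w, u⟫ • a • H (a • x + b • w) ∂gd d) x := by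
    refine hasFDerivAt_integral_of_dominated_of_fderiv_le (s := Set.univ)
      (F := fun y w => ⟪w, u⟫ • G (a • y + b • w))
      (F' := fun y w => ⟪w, u⟫ • a • H (a • y + b • w))
      (bound := fun w => |⟪w, u⟫| * (|a| * η)) univ_mem
      (Eventually.of_forall fun y => (integrable_inner_grad hW hη a b u y).aestronglyMeasurable)
      (integrable_inner_grad hW hη a b u x)
      ((show Continuous fun w : Sp d => ⟪w, u⟫ by fun_prop).smul
        ((continuous_hess_shift hW a b x).const_smul a)).aestronglyMeasurable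
      ?_ ((integrable_inner_gd u).abs.mul_const _) ?_
    · refine Eventually.of_forall fun w y _ => ?_
      rw [norm_smul, norm_smul, norm_eq_abs, norm_eq_abs]
      gcongr
      exact hW.norm_hess hη _
    · refine Eventually.of_forall fun w y _ => ?_
      have h := (hW.hasHess (a • y + b • w)).comp y
        (((hasFDerivAt_id (𝕜 := ℝ) y).const_smul a).add_const (b • w))
      refine (h.congr_fderiv ?_).const_smul ⟪w, u⟫
      ext z
      simp
  refine (h.const_smul (a / b)).congr_fderiv ?_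
  have e : ∫ w, ⟪w, u⟫ • a • H (a • x + b • w) ∂gd d
      = a • ∫ w, ⟪w, u⟫ • H (a • x + b • w) ∂gd d := by
    rw [← integral_smul]
    exact integral_congr_ae (Eventually.of_forall fun w => smul_comm _ _ _)
  rw [e, sH, smul_smul]
  congr 1
  ring

lemma continuous_sH (hW : IsPot W G H 0 η) (hη : 0 ≤ η) (a b : ℝ) (u : Sp d) :
    Continuous (sH a b H u) :=
  (continuous_of_dominated (bound := fun w => |⟪w, u⟫| * η)
    (fun x => (integrable_inner_hess hW hη a b u x).aestronglyMeasurable)
    (fun x => Eventually.of_forall fun w => by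
      rw [norm_smul, norm_eq_abs]
      exact mul_le_mul_of_nonneg_left (hW.norm_hess hη _) (abs_nonneg _))
    ((integrable_inner_gd u).abs.mul_const _)
    (Eventually.of_forall fun w =>
      (hW.contHess.comp (f := fun x => a • x + b • w) (by fun_prop)).const_smul ⟪w, u⟫)).const_smul
    (a ^ 2 / b)

lemma norm_sH_le (hW : IsPot W G H 0 η) (hη : 0 ≤ η) (a b : ℝ) (u x : Sp d) :
    ‖sH a b H u x‖ ≤ a ^ 2 / |b| * (η * (√d * ‖u‖)) := by
  rw [sH, norm_smul, norm_div, norm_eq_abs, norm_eq_abs, abs_of_nonneg (sq_nonneg a)]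
  refine mul_le_mul_of_nonneg_left ?_ (by positivity)
  refine (norm_integral_le_of_norm_le ((integrable_inner_gd u).abs.const_mul η)
    (Eventually.of_forall fun w => ?_)).trans ?_
  · rw [norm_smul, norm_eq_abs, mul_comm]
    exact mul_le_mul_of_nonneg_right (hW.norm_hess hη _) (abs_nonneg _)
  · rw [integral_const_mul]
    exact mul_le_mul_of_nonneg_left (integral_abs_inner_le u) hη

/-- The second derivative is symmetric. -/
lemma sH_symm (hW : IsPot W G H 0 η) (hη : 0 ≤ η) {a b : ℝ} (hb : b ≠ 0) (u v x : Sp d) :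
    sH a b H u x v = sH a b H v x u := by
  have hdiff : DifferentiableAt ℝ (sD a b H) x :=
    ((contDiff_clm_apply_iff (n := 1)).2 fun u => contDiff_one_iff_fderiv.2
      ⟨fun y => (hasFDerivAt_sD_apply hW hη hb u y).differentiableAt, by
        rw [funext fun y => (hasFDerivAt_sD_apply (a := a) hW hη hb u y).fderiv]
        exact continuous_sH hW hη a b u⟩).differentiable one_ne_zero x
  have e : ∀ u v, fderiv ℝ (sD a b H) x v u = sH a b H u x v := fun u v => by
    have h := ((ContinuousLinearMap.apply ℝ (Sp d) u).hasFDerivAt.comp x hdiff.hasFDerivAt).unique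
      (hasFDerivAt_sD_apply hW hη hb u x)
    exact (congrArg (fun L => L v) h :)
  rw [← e u v, ← e v u]
  exact second_derivative_symmetric (f' := sD a b H)
    (fun y => hasFDerivAt_smth hW hη a b y) hdiff.hasFDerivAt v u

/-- Bessel's inequality for the first Gaussian moments of a bounded field. -/
lemma bessel_vec {f : Sp d → Sp d} (hf : Continuous f) {M : ℝ} (hM : ∀ w, ‖f w‖ ≤ M) :
    ∑ i, ‖∫ w, ⟪w, EuclideanSpace.basisFun (Fin d) ℝ i⟫ • f w ∂gd d‖ ^ 2 ≤ M ^ 2 := by
  have hlip : ∀ c : Sp d, ∫ w, ⟪w, c⟫ ^ 2 ∂gd d = ‖c‖ ^ 2 := fun c => by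
    have h := gauss_ibp (F := fun w : Sp d => ⟪c, w⟫) (C := ‖c‖) (K := 1)
      (contDiff_const.inner ℝ contDiff_id)
      (fun w => (abs_real_inner_le_norm _ _).trans
        (mul_le_mul_of_nonneg_left (by rw [one_mul]; linarith [add_one_le_exp ‖w‖]) (norm_nonneg _)))
      (fun w => by
        rw [show fderiv ℝ (fun w : Sp d => ⟪c, w⟫) w = innerSL ℝ c from
          (innerSL ℝ c).hasFDerivAt.fderiv, innerSL_apply_norm]
        exact le_mul_of_one_le_right (norm_nonneg _) (one_le_exp (by positivity))) c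
    have e : ∀ w, fderiv ℝ (fun w : Sp d => ⟪c, w⟫) w c = ‖c‖ ^ 2 := fun w => by
      rw [show fderiv ℝ (fun w : Sp d => ⟪c, w⟫) w = innerSL ℝ c from
        (innerSL ℝ c).hasFDerivAt.fderiv]
      simp
    simp only [e, integral_const, probReal_univ, one_smul] at h
    rw [h]
    refine integral_congr_ae (Eventually.of_forall fun w => ?_)
    simp only [real_inner_comm c w, sq]
  set b := EuclideanSpace.basisFun (Fin d) ℝ
  have hM0 : 0 ≤ M := (norm_nonneg _).trans (hM 0)
  have hfk : ∀ k, Continuous fun w => f w k := fun k => by fun_prop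
  have hb : ∀ k w, |f w k| ≤ M := fun k w => by
    have := PiLp.norm_apply_le (f w) k
    rw [norm_eq_abs] at this
    exact this.trans (hM w)
  set c : Fin d → Sp d := fun k => ∫ w, f w k • w ∂gd d
  have hci : ∀ k, Integrable (fun w => f w k • w) (gd d) := fun k =>
    (integrable_norm_gd.const_mul M).mono' ((hfk k).smul continuous_id).aestronglyMeasurable
      (Eventually.of_forall fun w => by
        rw [norm_smul, norm_eq_abs]; exact mul_le_mul_of_nonneg_right (hb k w) (norm_nonneg _))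
  have hk : ∀ k, ‖c k‖ ^ 2 ≤ ∫ w, f w k ^ 2 ∂gd d := fun k => by
    have i1 : Integrable (fun w => f w k ^ 2) (gd d) :=
      (integrable_const (M ^ 2)).mono' ((hfk k).pow 2).aestronglyMeasurable
        (Eventually.of_forall fun w => by
          rw [norm_eq_abs, abs_pow]; exact pow_le_pow_left₀ (abs_nonneg _) (hb k w) 2)
    have i2 : Integrable (fun w => f w k * ⟪w, c k⟫) (gd d) := by
      simpa [real_inner_smul_left] using (hci k).inner_const (𝕜 := ℝ) (c k)
    have i3 : Integrable (fun w => ⟪w, c k⟫ ^ 2) (gd d) :=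
      (integrable_norm_sq_gd.mul_const (‖c k‖ ^ 2)).mono'
        ((show Continuous fun w : Sp d => ⟪w, c k⟫ ^ 2 by fun_prop)).aestronglyMeasurable
        (Eventually.of_forall fun w => by
          rw [norm_eq_abs, abs_pow, ← mul_pow]
          exact pow_le_pow_left₀ (abs_nonneg _) (abs_real_inner_le_norm _ _) 2)
    have hmid : ∫ w, f w k * ⟪w, c k⟫ ∂gd d = ‖c k‖ ^ 2 := by
      calc ∫ w, f w k * ⟪w, c k⟫ ∂gd d = ∫ w, ⟪c k, f w k • w⟫ ∂gd d :=
            integral_congr_ae (Eventually.of_forall fun w => by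
              simp only [real_inner_smul_right, real_inner_comm w (c k)])
        _ = ⟪c k, c k⟫ := integral_inner (hci k) _
        _ = _ := real_inner_self_eq_norm_sq _
    have h0 : 0 ≤ ∫ w, (f w k - ⟪w, c k⟫) ^ 2 ∂gd d := integral_nonneg fun w => sq_nonneg _
    rw [show (fun w => (f w k - ⟪w, c k⟫) ^ 2)
        = fun w => (f w k ^ 2 - 2 * (f w k * ⟪w, c k⟫)) + ⟪w, c k⟫ ^ 2 from
      funext fun w => by ring] at h0
    rw [integral_add (f := fun w => f w k ^ 2 - 2 * (f w k * ⟪w, c k⟫)) (i1.sub (i2.const_mul 2))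
      i3, integral_sub i1 (i2.const_mul 2), integral_const_mul, hmid, hlip] at h0
    linarith
  have hfi : ∀ i, Integrable (fun w => ⟪w, b i⟫ • f w) (gd d) := fun i =>
    ((integrable_inner_gd (b i)).abs.mul_const M).mono'
      ((show Continuous fun w : Sp d => ⟪w, b i⟫ by fun_prop).smul hf).aestronglyMeasurable
      (Eventually.of_forall fun w => by
        rw [norm_smul, norm_eq_abs]; exact mul_le_mul_of_nonneg_left (hM w) (abs_nonneg _))
  have hcomp : ∀ i k, (∫ w, ⟪w, b i⟫ • f w ∂gd d) k = c k i := fun i k => by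
    have h1 := (EuclideanSpace.proj (𝕜 := ℝ) k).integral_comp_comm (hfi i)
    have h2 := (EuclideanSpace.proj (𝕜 := ℝ) i).integral_comp_comm (hci k)
    simp only [PiLp.proj_apply] at h1 h2
    rw [← h1, ← h2]
    refine integral_congr_ae (Eventually.of_forall fun w => ?_)
    simp [b, EuclideanSpace.inner_single_right, mul_comm]
  calc ∑ i, ‖∫ w, ⟪w, b i⟫ • f w ∂gd d‖ ^ 2 = ∑ i, ∑ k, c k i ^ 2 := by
        simp only [EuclideanSpace.real_norm_sq_eq, hcomp]
    _ = ∑ k, ‖c k‖ ^ 2 := by rw [Finset.sum_comm]; simp only [EuclideanSpace.real_norm_sq_eq]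
    _ ≤ ∑ k, ∫ w, f w k ^ 2 ∂gd d := Finset.sum_le_sum fun k _ => hk k
    _ = ∫ w, ‖f w‖ ^ 2 ∂gd d := by
        simp only [EuclideanSpace.real_norm_sq_eq]
        rw [integral_finsetSum]
        exact fun k _ => (integrable_const (M ^ 2)).mono' ((hfk k).pow 2).aestronglyMeasurable
          (Eventually.of_forall fun w => by
            rw [norm_eq_abs, abs_pow]; exact pow_le_pow_left₀ (abs_nonneg _) (hb k w) 2)
    _ ≤ ∫ _, M ^ 2 ∂gd d := by
        refine integral_mono_of_nonneg (Eventually.of_forall fun w => sq_nonneg _)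
          (integrable_const _) (Eventually.of_forall fun w => pow_le_pow_left₀ (norm_nonneg _) (hM w) 2)
    _ = M ^ 2 := by simp

/-- The Frobenius bound. -/
lemma sum_sH_sq_le (hW : IsPot W G H 0 η) (hη : 0 ≤ η) {a b : ℝ} (hb : b ≠ 0) (u x : Sp d) :
    ∑ i, ‖sH a b H u x (EuclideanSpace.basisFun (Fin d) ℝ i)‖ ^ 2
      ≤ (a ^ 2 / |b| * η * ‖u‖) ^ 2 := by
  simp only [sH_symm hW hη hb u]
  have e : ∀ v, sH a b H v x u
      = (a ^ 2 / b) • ∫ w, ⟪w, v⟫ • H (a • x + b • w) u ∂gd d := fun v => by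
    rw [sH, smul_apply,
      ContinuousLinearMap.integral_apply (integrable_inner_hess hW hη a b v x)]
    rfl
  simp only [e, norm_smul, mul_pow, ← Finset.mul_sum, norm_div, norm_eq_abs,
    abs_of_nonneg (sq_nonneg a)]
  rw [mul_assoc]
  refine mul_le_mul_of_nonneg_left ?_ (sq_nonneg _)
  rw [← mul_pow]
  exact bessel_vec (((continuous_hess_shift hW a b x).clm_apply continuous_const))
    fun w => (H _).le_of_opNorm_le (hW.norm_hess hη _) u

end Vale.Agent.P347.Quarter
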