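import Vale.Agent.P347.Quarter.Flow.Deriv

/-!
# P347: the transport field, its two derivatives and the first order identity

The field is `a = ∫₀^κ pv v G dv`. Its second derivative is integrable up to `κ = 1`, and the
fundamental theorem of calculus for `v ↦ v • pv v G x` gives
`κ • pv κ G x = a + Da x - Δa`.
-/

open MeasureTheory ProbabilityTheory Real Filter Set Topology
open scoped RealInnerProductSpace

namespace Vale.Agent.P347.Quarter

variable {d : ℕ} {W : Sp d → ℝ} {G : Sp d → Sp d} {H : Sp d → Sp d →L[ℝ] Sp d} {η : ℝ}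

/-- Lebesgue measure on `(0, κ)`. -/
noncomputable def muK (κ : ℝ) : Measure ℝ := volume.restrict (Ioo 0 κ)

instance instFiniteMuK (κ : ℝ) : IsFiniteMeasure (muK κ) :=
  isFiniteMeasure_restrict.2 measure_Ioo_lt_top.ne

/-- The derivative of the flow. -/
noncomputable def flD (κ : ℝ) (H : Sp d → Sp d →L[ℝ] Sp d) (x : Sp d) : Sp d →L[ℝ] Sp d :=
  ∫ v, sD v (√(1 - v ^ 2)) H x ∂muK κ

/-- The derivative of `x ↦ flD κ H x u`. -/
noncomputable def flH (κ : ℝ) (H : Sp d → Sp d →L[ℝ] Sp d) (u x : Sp d) : Sp d →L[ℝ] Sp d :=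
  ∫ v, sH v (√(1 - v ^ 2)) H u x ∂muK κ

/-- The weight of the second derivative. -/
noncomputable def wt (v : ℝ) : ℝ := v ^ 2 / √(1 - v ^ 2)

lemma ae_muK {κ : ℝ} {p : ℝ → Prop} (h : ∀ v ∈ Ioo 0 κ, p v) : ∀ᵐ v ∂muK κ, p v :=
  (ae_restrict_iff' measurableSet_Ioo).2 (Eventually.of_forall h)

lemma muK_real {κ : ℝ} (hκ : 0 ≤ κ) : (muK κ).real univ = κ := by
  simp [muK, hκ]

lemma bb_pos {v : ℝ} (h0 : 0 < v) (h1 : v < 1) : 0 < √(1 - v ^ 2) :=
  sqrt_pos.2 (by nlinarith)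

lemma abs_bb {v : ℝ} : |√(1 - v ^ 2)| = √(1 - v ^ 2) := abs_of_nonneg (sqrt_nonneg _)

lemma bb_le_one (v : ℝ) : √(1 - v ^ 2) ≤ 1 := sqrt_le_one.2 (by nlinarith [sq_nonneg v])

lemma mem_Ioo_one {κ v : ℝ} (hκ1 : κ ≤ 1) (hv : v ∈ Ioo 0 κ) : 0 < v ∧ v < 1 :=
  ⟨hv.1, hv.2.trans_le hκ1⟩

lemma wt_bound {κ : ℝ} (hκ : 0 ≤ κ) (hκ1 : κ ≤ 1) :
    Integrable wt (muK κ) ∧ ∫ v, wt v ∂muK κ ≤ 1 := by
  have hc : ContinuousOn (fun v : ℝ => -√(1 - v ^ 2)) (Icc 0 κ) := by fun_prop
  have hd : ∀ v ∈ Ioo 0 κ, HasDerivAt (fun v : ℝ => -√(1 - v ^ 2)) (v / √(1 - v ^ 2)) v := by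
    intro v hv
    obtain ⟨h0, h1⟩ := mem_Ioo_one hκ1 hv
    refine ((((hasDerivAt_pow 2 v).const_sub 1).sqrt (by nlinarith)).neg).congr_deriv ?_
    have := (bb_pos h0 h1).ne'
    field_simp
    simp
  have hi : IntegrableOn (fun v : ℝ => v / √(1 - v ^ 2)) (Ioc 0 κ) :=
    intervalIntegral.integrableOn_deriv_of_nonneg hc hd fun v hv =>
      div_nonneg hv.1.le (sqrt_nonneg _)
  have hi' : Integrable (fun v : ℝ => v / √(1 - v ^ 2)) (muK κ) :=
    hi.mono_set Ioo_subset_Ioc_self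
  have hle : ∀ᵐ v ∂muK κ, wt v ≤ v / √(1 - v ^ 2) := ae_muK fun v hv => by
    obtain ⟨h0, h1⟩ := mem_Ioo_one hκ1 hv
    exact div_le_div_of_nonneg_right (by nlinarith) (sqrt_nonneg _)
  have hw : Integrable wt (muK κ) :=
    hi'.mono' (show Measurable wt by unfold wt; fun_prop).aestronglyMeasurable (hle.mono fun v hv => by
      rwa [norm_eq_abs, abs_of_nonneg (show 0 ≤ wt v from div_nonneg (sq_nonneg v) (sqrt_nonneg _))])
  refine ⟨hw, (integral_mono_ae hw hi' hle).trans ?_⟩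
  have h := intervalIntegral.integral_eq_sub_of_hasDerivAt_of_le hκ hc hd
    ((intervalIntegrable_iff_integrableOn_Ioc_of_le hκ).2 hi)
  rw [intervalIntegral.integral_of_le hκ, ← setIntegral_congr_set Ioo_ae_eq_Ioc] at h
  rw [muK, h]
  simp only [ne_eq, OfNat.ofNat_ne_zero, not_false_eq_true, zero_pow, sub_zero, sqrt_one]
  linarith [sqrt_nonneg (1 - κ ^ 2)]

lemma integrable_affine_norm (A B : ℝ) : Integrable (fun w : Sp d => A + B * ‖w‖) (gd d) :=
  (integrable_const A).add (integrable_norm_gd.const_mul B)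

lemma norm_smth_le (hW : IsPot W G H 0 η) (hη : 0 ≤ η) (a b : ℝ) (x : Sp d) :
    ‖smth a b G x‖ ≤ ‖G 0‖ + η * (|a| * ‖x‖ + |b| * √d) := by
  refine (norm_integral_le_of_norm_le (integrable_affine_norm (‖G 0‖ + η * (|a| * ‖x‖)) (η * |b|))
    (Eventually.of_forall fun w => ?_)).trans ?_
  · refine (hW.norm_grad_le hη _).trans ?_
    have h := norm_add_le (a • x) (b • w)
    rw [norm_smul a, norm_smul b, norm_eq_abs, norm_eq_abs] at h
    nlinarith [mul_le_mul_of_nonneg_left h hη]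
  · rw [integral_add (integrable_const _) (integrable_norm_gd.const_mul _), integral_const_mul]
    simp only [integral_const, probReal_univ, one_smul]
    nlinarith [mul_le_mul_of_nonneg_left (integral_norm_le (d := d))
      (mul_nonneg hη (abs_nonneg b))]

lemma norm_pv_le (hW : IsPot W G H 0 η) (hη : 0 ≤ η) {v : ℝ} (h0 : 0 ≤ v) (h1 : v ≤ 1)
    (x : Sp d) : ‖pv v G x‖ ≤ ‖G 0‖ + η * (‖x‖ + √d) := by
  refine (norm_smth_le hW hη _ _ x).trans ?_
  rw [abs_of_nonneg h0, abs_bb]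
  gcongr
  · exact mul_le_of_le_one_left (norm_nonneg _) h1
  · exact mul_le_of_le_one_left (sqrt_nonneg _) (bb_le_one v)

/-- The Mehler average depends continuously on the correlation. -/
lemma continuousOn_pv (hW : IsPot W G H 0 η) (hη : 0 ≤ η) (x : Sp d) :
    ContinuousOn (fun v => pv v G x) (Icc (-1) 1) := by
  refine continuousOn_of_dominated (bound := fun w => ‖G 0‖ + η * ‖x‖ + η * ‖w‖)
    (fun v _ => (integrable_grad_comp hW hη v _ x).aestronglyMeasurable)
    (fun v hv => Eventually.of_forall fun w => ?_)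
    (integrable_affine_norm _ _)
    (Eventually.of_forall fun w => (hW.continuous_grad.comp (by fun_prop)).continuousOn)
  refine (hW.norm_grad_le hη _).trans ?_
  rw [add_assoc, ← mul_add]
  gcongr
  refine (norm_add_le _ _).trans ?_
  rw [norm_smul, norm_smul, norm_eq_abs, norm_eq_abs, abs_bb]
  gcongr
  · exact mul_le_of_le_one_left (norm_nonneg _) (abs_le.2 hv)
  · exact mul_le_of_le_one_left (norm_nonneg _) (bb_le_one v)

lemma continuousOn_sD (hW : IsPot W G H 0 η) (hη : 0 ≤ η) (x : Sp d) :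
    ContinuousOn (fun v => sD v (√(1 - v ^ 2)) H x) (Icc (-1) 1) := by
  refine continuousOn_of_dominated (bound := fun _ => η)
    (fun v _ => ((integrable_hess_comp hW hη v _ x).smul v).aestronglyMeasurable)
    (fun v hv => Eventually.of_forall fun w => ?_) (integrable_const _)
    (Eventually.of_forall fun w =>
      (continuous_id.smul (hW.contHess.comp (f := fun v : ℝ => v • x + √(1 - v ^ 2) • w)
        (by fun_prop))).continuousOn)
  rw [norm_smul, norm_eq_abs]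
  exact (mul_le_mul (abs_le.2 hv) (hW.norm_hess hη _) (norm_nonneg _) zero_le_one).trans_eq
    (one_mul η)

lemma continuousOn_sH (hW : IsPot W G H 0 η) (hη : 0 ≤ η) (u x : Sp d) :
    ContinuousOn (fun v => sH v (√(1 - v ^ 2)) H u x) (Ioo 0 1) := by
  refine ContinuousOn.smul (f := fun v : ℝ => v ^ 2 / √(1 - v ^ 2))
    (g := fun v => ∫ w, ⟪w, u⟫ • H (v • x + √(1 - v ^ 2) • w) ∂gd d) ?_ ?_
  · exact (continuousOn_id.pow 2).div (by fun_prop) fun v hv => (bb_pos hv.1 hv.2).ne'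
  refine (continuous_of_dominated (bound := fun w => |⟪w, u⟫| * η)
    (fun v => (integrable_inner_hess hW hη v _ u x).aestronglyMeasurable)
    (fun v => Eventually.of_forall fun w => ?_) ((integrable_inner_gd u).abs.mul_const _)
    (Eventually.of_forall fun w => (hW.contHess.comp (f := fun v : ℝ => v • x + √(1 - v ^ 2) • w)
      (by fun_prop)).const_smul ⟪w, u⟫)).continuousOn
  rw [norm_smul, norm_eq_abs]
  exact mul_le_mul_of_nonneg_left (hW.norm_hess hη _) (abs_nonneg _)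

lemma subset_Icc_one {κ : ℝ} (hκ1 : κ ≤ 1) : Ioo (0:ℝ) κ ⊆ Icc (-1) 1 := fun v hv =>
  ⟨by linarith [hv.1], by linarith [hv.2]⟩

lemma integrable_pv (hW : IsPot W G H 0 η) (hη : 0 ≤ η) {κ : ℝ} (hκ1 : κ ≤ 1) (x : Sp d) :
    Integrable (fun v => pv v G x) (muK κ) :=
  (integrable_const (‖G 0‖ + η * (‖x‖ + √d))).mono'
    (((continuousOn_pv hW hη x).mono (subset_Icc_one hκ1)).aestronglyMeasurable measurableSet_Ioo)
    (ae_muK fun _ hv => norm_pv_le hW hη hv.1.le (mem_Ioo_one hκ1 hv).2.le x)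

lemma sD_le_eta (hW : IsPot W G H 0 η) (hη : 0 ≤ η) {κ v : ℝ} (hκ1 : κ ≤ 1) (hv : v ∈ Ioo 0 κ)
    (x : Sp d) : ‖sD v (√(1 - v ^ 2)) H x‖ ≤ η := by
  refine (norm_sD_le hW hη _ _ x).trans (mul_le_of_le_one_left hη ?_)
  rw [abs_of_nonneg hv.1.le]
  exact (mem_Ioo_one hκ1 hv).2.le

lemma integrable_sD (hW : IsPot W G H 0 η) (hη : 0 ≤ η) {κ : ℝ} (hκ1 : κ ≤ 1) (x : Sp d) :
    Integrable (fun v => sD v (√(1 - v ^ 2)) H x) (muK κ) :=
  (integrable_const η).mono'
    (((continuousOn_sD hW hη x).mono (subset_Icc_one hκ1)).aestronglyMeasurable measurableSet_Ioo)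
    (ae_muK fun _ hv => sD_le_eta hW hη hκ1 hv x)

lemma sH_le_wt (hW : IsPot W G H 0 η) (hη : 0 ≤ η) (v : ℝ) (u x : Sp d) :
    ‖sH v (√(1 - v ^ 2)) H u x‖ ≤ wt v * (η * (√d * ‖u‖)) := by
  refine (norm_sH_le hW hη _ _ u x).trans_eq ?_
  rw [abs_bb, wt]

lemma integrable_sH (hW : IsPot W G H 0 η) (hη : 0 ≤ η) {κ : ℝ} (hκ : 0 ≤ κ) (hκ1 : κ ≤ 1)
    (u x : Sp d) : Integrable (fun v => sH v (√(1 - v ^ 2)) H u x) (muK κ) :=
  ((wt_bound hκ hκ1).1.mul_const _).mono'
    (((continuousOn_sH hW hη u x).mono fun _ hv => mem_Ioo_one hκ1 hv).aestronglyMeasurable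
      measurableSet_Ioo)
    (Eventually.of_forall fun v => sH_le_wt hW hη v u x)

lemma flow_eq {κ : ℝ} (hκ : 0 ≤ κ) (G : Sp d → Sp d) :
    flow κ G = fun x => ∫ v, pv v G x ∂muK κ := by
  funext x
  rw [flow, intervalIntegral.integral_of_le hκ, muK]
  exact (setIntegral_congr_set Ioo_ae_eq_Ioc).symm

lemma norm_flow_le (hW : IsPot W G H 0 η) (hη : 0 ≤ η) {κ : ℝ} (hκ : 0 ≤ κ) (hκ1 : κ ≤ 1)
    (x : Sp d) : ‖flow κ G x‖ ≤ ‖G 0‖ + η * (‖x‖ + √d) := by
  rw [flow_eq hκ]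
  refine (norm_integral_le_of_norm_le_const
    (ae_muK fun v hv => norm_pv_le hW hη hv.1.le (mem_Ioo_one hκ1 hv).2.le x)).trans ?_
  rw [muK_real hκ]
  exact mul_le_of_le_one_right (by positivity) hκ1

lemma hasFDerivAt_flow (hW : IsPot W G H 0 η) (hη : 0 ≤ η) {κ : ℝ} (hκ : 0 ≤ κ) (hκ1 : κ ≤ 1)
    (x : Sp d) : HasFDerivAt (flow κ G) (flD κ H x) x := by
  rw [flow_eq hκ]
  exact hasFDerivAt_integral_of_dominated_of_fderiv_le (s := Set.univ)
    (F := fun y v => pv v G y) (F' := fun y v => sD v (√(1 - v ^ 2)) H y) (bound := fun _ => η)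
    univ_mem (Eventually.of_forall fun y => (integrable_pv hW hη hκ1 y).aestronglyMeasurable)
    (integrable_pv hW hη hκ1 x) (integrable_sD hW hη hκ1 x).aestronglyMeasurable
    (ae_muK fun _ hv y _ => sD_le_eta hW hη hκ1 hv y) (integrable_const _)
    (Eventually.of_forall fun _ y _ => hasFDerivAt_smth hW hη _ _ y)

lemma continuous_flD (hW : IsPot W G H 0 η) (hη : 0 ≤ η) {κ : ℝ} (hκ1 : κ ≤ 1) :
    Continuous (flD κ H) :=
  continuous_of_dominated (bound := fun _ => η)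
    (fun x => (integrable_sD hW hη hκ1 x).aestronglyMeasurable)
    (fun x => ae_muK fun _ hv => sD_le_eta hW hη hκ1 hv x) (integrable_const _)
    (Eventually.of_forall fun _ => continuous_sD hW hη _ _)

lemma norm_flD_le (hW : IsPot W G H 0 η) (hη : 0 ≤ η) {κ : ℝ} (hκ : 0 ≤ κ) (hκ1 : κ ≤ 1)
    (x : Sp d) : ‖flD κ H x‖ ≤ η := by
  refine (norm_integral_le_of_norm_le_const (ae_muK fun _ hv => sD_le_eta hW hη hκ1 hv x)).trans ?_
  rw [muK_real hκ]
  exact mul_le_of_le_one_right hη hκ1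

lemma flD_apply (hW : IsPot W G H 0 η) (hη : 0 ≤ η) {κ : ℝ} (hκ1 : κ ≤ 1) (x u : Sp d) :
    flD κ H x u = ∫ v, sD v (√(1 - v ^ 2)) H x u ∂muK κ :=
  ContinuousLinearMap.integral_apply (integrable_sD hW hη hκ1 x) u

lemma flH_apply (hW : IsPot W G H 0 η) (hη : 0 ≤ η) {κ : ℝ} (hκ : 0 ≤ κ) (hκ1 : κ ≤ 1)
    (u x z : Sp d) : flH κ H u x z = ∫ v, sH v (√(1 - v ^ 2)) H u x z ∂muK κ :=
  ContinuousLinearMap.integral_apply (integrable_sH hW hη hκ hκ1 u x) z

lemma flD_symm (hW : IsPot W G H 0 η) (hη : 0 ≤ η) {κ : ℝ} (hκ1 : κ ≤ 1) (x u z : Sp d) :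
    ⟪flD κ H x u, z⟫ = ⟪u, flD κ H x z⟫ := by
  have hi := fun u => (integrable_sD hW hη hκ1 x).apply_continuousLinearMap u
  rw [flD_apply hW hη hκ1, flD_apply hW hη hκ1, real_inner_comm, ← integral_inner (hi u),
    ← integral_inner (hi z)]
  exact integral_congr_ae (Eventually.of_forall fun v =>
    (real_inner_comm _ _).trans (sD_symm hW hη _ _ x u z))

lemma flH_symm (hW : IsPot W G H 0 η) (hη : 0 ≤ η) {κ : ℝ} (hκ : 0 ≤ κ) (hκ1 : κ ≤ 1)
    (u z x : Sp d) : flH κ H u x z = flH κ H z x u := by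
  rw [flH_apply hW hη hκ hκ1, flH_apply hW hη hκ hκ1]
  exact integral_congr_ae (ae_muK fun v hv =>
    sH_symm hW hη (bb_pos hv.1 (mem_Ioo_one hκ1 hv).2).ne' u z x)

lemma hasFDerivAt_flD_apply (hW : IsPot W G H 0 η) (hη : 0 ≤ η) {κ : ℝ} (hκ : 0 ≤ κ) (hκ1 : κ ≤ 1)
    (u x : Sp d) : HasFDerivAt (fun y => flD κ H y u) (flH κ H u x) x := by
  rw [funext fun y => flD_apply hW hη hκ1 y u]
  exact hasFDerivAt_integral_of_dominated_of_fderiv_le (s := Set.univ)
    (F := fun y v => sD v (√(1 - v ^ 2)) H y u) (F' := fun y v => sH v (√(1 - v ^ 2)) H u y)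
    (bound := fun v => wt v * (η * (√d * ‖u‖))) univ_mem
    (Eventually.of_forall fun y =>
      ((integrable_sD hW hη hκ1 y).apply_continuousLinearMap u).aestronglyMeasurable)
    ((integrable_sD hW hη hκ1 x).apply_continuousLinearMap u)
    (integrable_sH hW hη hκ hκ1 u x).aestronglyMeasurable
    (Eventually.of_forall fun v y _ => sH_le_wt hW hη v u y)
    ((wt_bound hκ hκ1).1.mul_const _)
    (ae_muK fun v hv y _ =>
      hasFDerivAt_sD_apply hW hη (bb_pos hv.1 (mem_Ioo_one hκ1 hv).2).ne' u y)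

lemma continuous_flH (hW : IsPot W G H 0 η) (hη : 0 ≤ η) {κ : ℝ} (hκ : 0 ≤ κ) (hκ1 : κ ≤ 1)
    (u : Sp d) : Continuous (flH κ H u) :=
  continuous_of_dominated (bound := fun v => wt v * (η * (√d * ‖u‖)))
    (fun x => (integrable_sH hW hη hκ hκ1 u x).aestronglyMeasurable)
    (fun x => Eventually.of_forall fun v => sH_le_wt hW hη v u x)
    ((wt_bound hκ hκ1).1.mul_const _)
    (Eventually.of_forall fun _ => continuous_sH hW hη _ _ u)

lemma contDiff_flD (hW : IsPot W G H 0 η) (hη : 0 ≤ η) {κ : ℝ} (hκ : 0 ≤ κ) (hκ1 : κ ≤ 1) :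
    ContDiff ℝ 1 (flD κ H) :=
  (contDiff_clm_apply_iff (n := 1)).2 fun u => contDiff_one_iff_fderiv.2
    ⟨fun y => (hasFDerivAt_flD_apply hW hη hκ hκ1 u y).differentiableAt, by
      rw [funext fun y => (hasFDerivAt_flD_apply hW hη hκ hκ1 u y).fderiv]
      exact continuous_flH hW hη hκ hκ1 u⟩

/-- A trace against the second derivative. -/
lemma trace_pair_le (hW : IsPot W G H 0 η) (hη : 0 ≤ η) {κ : ℝ} (hκ : 0 ≤ κ) (hκ1 : κ ≤ 1)
    (u x : Sp d) (B : Sp d →L[ℝ] Sp d) :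
    |∑ i, ⟪EuclideanSpace.basisFun (Fin d) ℝ i,
        B (flH κ H u x (EuclideanSpace.basisFun (Fin d) ℝ i))⟫| ≤ √d * ‖B‖ * (η * ‖u‖) := by
  set e := EuclideanSpace.basisFun (Fin d) ℝ
  have he : ∀ i, ‖e i‖ = 1 := fun i => by simp [e]
  set S := fun v => sH v (√(1 - v ^ 2)) H u x
  have hi : ∀ i, Integrable (fun v => ⟪e i, B (S v (e i))⟫) (muK κ) := fun i =>
    ((B.integrable_comp ((integrable_sH hW hη hκ hκ1 u x).apply_continuousLinearMap (e i)))
      ).const_inner (e i)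
  have hrep : ∑ i, ⟪e i, B (flH κ H u x (e i))⟫ = ∫ v, ∑ i, ⟪e i, B (S v (e i))⟫ ∂muK κ := by
    rw [integral_finsetSum _ fun i _ => hi i]
    refine Finset.sum_congr rfl fun i _ => ?_
    have h1 := (integrable_sH hW hη hκ hκ1 u x).apply_continuousLinearMap (e i)
    rw [flH_apply hW hη hκ hκ1, ← B.integral_comp_comm h1]
    exact (integral_inner (B.integrable_comp h1) (e i)).symm
  rw [hrep, ← norm_eq_abs]
  refine (norm_integral_le_of_norm_le ((wt_bound hκ hκ1).1.const_mul (√d * ‖B‖ * (η * ‖u‖)))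
    (ae_muK fun v hv => ?_)).trans ?_
  · have hb := (bb_pos hv.1 (mem_Ioo_one hκ1 hv).2)
    have hs := sum_sH_sq_le hW hη (a := v) hb.ne' u x
    rw [abs_bb] at hs
    rw [norm_eq_abs]
    refine (Finset.abs_sum_le_sum_abs _ _).trans ?_
    calc ∑ i, |⟪e i, B (S v (e i))⟫| ≤ ∑ i, ‖B‖ * ‖S v (e i)‖ := Finset.sum_le_sum fun i _ =>
          (abs_real_inner_le_norm _ _).trans (by rw [he i, one_mul]; exact B.le_opNorm _)
      _ = ‖B‖ * ∑ i, 1 * ‖S v (e i)‖ := by simp [Finset.mul_sum]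
      _ ≤ ‖B‖ * (√(∑ i : Fin d, (1:ℝ) ^ 2) * √(∑ i, ‖S v (e i)‖ ^ 2)) :=
          mul_le_mul_of_nonneg_left (sum_mul_le_sqrt_mul_sqrt _ _ _) (norm_nonneg _)
      _ ≤ ‖B‖ * (√d * (wt v * η * ‖u‖)) := by
          gcongr
          · simp
          · rw [sqrt_le_left (by unfold wt; positivity)]
            exact hs
      _ = _ := by ring
  · rw [integral_const_mul]
    exact mul_le_of_le_one_right (by positivity) (wt_bound hκ hκ1).2

/-- The derivative in the correlation. -/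
lemma hasDerivAt_inner_pv (hW : IsPot W G H 0 η) (hη : 0 ≤ η) {v : ℝ} (hv : v ∈ Ioo (0:ℝ) 1)
    (x u : Sp d) : HasDerivAt (fun v => v * ⟪pv v G x, u⟫)
      (⟪pv v G x, u⟫ + ⟪sD v (√(1 - v ^ 2)) H x x, u⟫ -
        ∑ i, ⟪EuclideanSpace.basisFun (Fin d) ℝ i,
          sH v (√(1 - v ^ 2)) H u x (EuclideanSpace.basisFun (Fin d) ℝ i)⟫) v := by
  obtain ⟨h0, h1⟩ := hv
  set b := √(1 - v ^ 2) with hb_def
  have hb : 0 < b := bb_pos h0 h1
  set v1 := (1 + v) / 2
  have hv1 : v < v1 ∧ v1 < 1 := ⟨by simp only [v1]; linarith, by simp only [v1]; linarith⟩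
  set s := Ioo (0:ℝ) v1
  set c := √(1 - v1 ^ 2)
  have hc : 0 < c := bb_pos (by linarith [hv1.1]) hv1.2
  have hcb : ∀ t ∈ s, c ≤ √(1 - t ^ 2) := fun t ht =>
    sqrt_le_sqrt (by nlinarith [ht.1, ht.2])
  have hder : HasDerivAt (fun t => pv t G x)
      (∫ w, H (v • x + b • w) (x + (-v / b) • w) ∂gd d) v := by
    have h := hasDerivAt_integral_of_dominated_loc_of_deriv_le (μ := gd d) (s := s)
      (F := fun t w => G (t • x + √(1 - t ^ 2) • w))
      (F' := fun t w => H (t • x + √(1 - t ^ 2) • w) (x + (-t / √(1 - t ^ 2)) • w))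
      (bound := fun w => η * ‖x‖ + η / c * ‖w‖) (Ioo_mem_nhds h0 hv1.1)
      (Eventually.of_forall fun t => (integrable_grad_comp hW hη t _ x).aestronglyMeasurable)
      (integrable_grad_comp hW hη v _ x)
      ((continuous_hess_shift hW v b x).clm_apply (by fun_prop)).aestronglyMeasurable
      (Eventually.of_forall fun w t ht => ?_)
      (integrable_affine_norm _ _)
      (Eventually.of_forall fun w t ht => ?_)
    · exact h.2
    · have hbt := hc.trans_le (hcb t ht)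
      refine ((H _).le_of_opNorm_le (hW.norm_hess hη _) _).trans ?_
      rw [div_mul_eq_mul_div, mul_div_assoc, ← mul_add]
      gcongr
      refine (norm_add_le _ _).trans ?_
      gcongr
      rw [norm_smul, norm_div, norm_neg, norm_eq_abs, norm_eq_abs, abs_bb, abs_of_pos ht.1,
        div_mul_eq_mul_div]
      exact div_le_div₀ (norm_nonneg _)
        (mul_le_of_le_one_left (norm_nonneg _) (by linarith [ht.2, hv1.2])) hc (hcb t ht)
    · have hbt := hc.trans_le (hcb t ht)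
      have hs : HasDerivAt (fun t : ℝ => √(1 - t ^ 2)) (-t / √(1 - t ^ 2)) t := by
        refine (((hasDerivAt_pow 2 t).const_sub 1).sqrt (by
          intro h; rw [h, sqrt_zero] at hbt; exact hbt.false)).congr_deriv ?_
        field_simp
        simp
      have hin := ((hasDerivAt_id t).smul_const x).add (hs.smul_const w)
      exact ((hW.hasHess _).comp_hasDerivAt t hin).congr_deriv (by simp)
  have hH := integrable_hess_comp hW hη v b x
  have hHx := hH.apply_continuousLinearMap x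
  have hHw : Integrable (fun w => H (v • x + b • w) w) (gd d) :=
    (integrable_norm_gd.const_mul η).mono'
      ((continuous_hess_shift hW v b x).clm_apply continuous_id).aestronglyMeasurable
      (Eventually.of_forall fun w => (H _).le_of_opNorm_le (hW.norm_hess hη _) w)
  have hsum : ∑ i, ⟪EuclideanSpace.basisFun (Fin d) ℝ i,
      sH v b H u x (EuclideanSpace.basisFun (Fin d) ℝ i)⟫
        = v ^ 2 / b * ⟪∫ w, H (v • x + b • w) w ∂gd d, u⟫ := by
    set e := EuclideanSpace.basisFun (Fin d) ℝ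
    have hi : ∀ i, Integrable (fun w => ⟪w, e i⟫ • H (v • x + b • w) u) (gd d) := fun i =>
      (integrable_inner_hess hW hη v b (e i) x).apply_continuousLinearMap u
    have e1 : ∀ i, ⟪e i, sH v b H u x (e i)⟫
        = v ^ 2 / b * ∫ w, ⟪e i, ⟪w, e i⟫ • H (v • x + b • w) u⟫ ∂gd d := fun i => by
      rw [sH_symm hW hη hb.ne' u (e i) x, integral_inner (hi i), sH, smul_apply,
        ContinuousLinearMap.integral_apply (integrable_inner_hess hW hη v b (e i) x),
        real_inner_smul_right]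
      rfl
    rw [Finset.sum_congr rfl fun i _ => e1 i, ← Finset.mul_sum,
      ← integral_finsetSum _ fun i _ => ((hi i).const_inner (e i)), real_inner_comm,
      ← integral_inner hHw]
    congr 1
    refine integral_congr_ae (Eventually.of_forall fun w => ?_)
    simp only [real_inner_smul_right]
    calc ∑ i, ⟪w, e i⟫ * ⟪e i, H (v • x + b • w) u⟫ = ⟪w, H (v • x + b • w) u⟫ :=
          e.sum_inner_mul_inner w _
      _ = _ := by rw [← hW.symHess, real_inner_comm]
  refine ((hasDerivAt_id v).mul (hder.inner ℝ (hasDerivAt_const v u))).congr_deriv ?_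
  simp only [id, one_mul, inner_zero_right, zero_add]
  rw [hsum, sD_apply hW hη, show ∫ w, H (v • x + b • w) (x + (-v / b) • w) ∂gd d
      = (∫ w, H (v • x + b • w) x ∂gd d) + (-v / b) • ∫ w, H (v • x + b • w) w ∂gd d by
    simp only [map_add, map_smul]
    rw [integral_add hHx (g := fun w => (-v / b) • H (v • x + b • w) w) (hHw.smul (-v / b)),
      integral_smul], integral_smul, inner_add_left,
    real_inner_smul_left, real_inner_smul_left]
  ring

/-- The first order identity of the transport. -/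
theorem flow_identity (hW : IsPot W G H 0 η) (hη : 0 ≤ η) {κ : ℝ} (hκ : 0 ≤ κ) (hκ1 : κ ≤ 1)
    (x u : Sp d) :
    κ * ⟪pv κ G x, u⟫ = ⟪flow κ G x, u⟫ + ⟪flD κ H x x, u⟫ -
      ∑ i, ⟪EuclideanSpace.basisFun (Fin d) ℝ i,
        flH κ H u x (EuclideanSpace.basisFun (Fin d) ℝ i)⟫ := by
  set e := EuclideanSpace.basisFun (Fin d) ℝ
  have i1 := (integrable_pv hW hη hκ1 x).inner_const (𝕜 := ℝ) u
  have i2 := ((integrable_sD hW hη hκ1 x).apply_continuousLinearMap x).inner_const (𝕜 := ℝ) u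
  have i3 : Integrable (fun v => ∑ i, ⟪e i, sH v (√(1 - v ^ 2)) H u x (e i)⟫) (muK κ) :=
    integrable_finsetSum _ fun i _ =>
      ((integrable_sH hW hη hκ hκ1 u x).apply_continuousLinearMap (e i)).const_inner (e i)
  have hint := (i1.add i2).sub i3
  have hc : ContinuousOn (fun v => v * ⟪pv v G x, u⟫) (Icc 0 κ) :=
    continuousOn_id.mul (((continuousOn_pv hW hη x).mono
      fun v hv => ⟨by linarith [hv.1], hv.2.trans hκ1⟩).inner continuousOn_const)
  have h := intervalIntegral.integral_eq_sub_of_hasDerivAt_of_le hκ hc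
    (fun v hv => hasDerivAt_inner_pv hW hη (mem_Ioo_one hκ1 hv) x u)
    ((intervalIntegrable_iff_integrableOn_Ioo_of_le hκ).2 hint)
  rw [intervalIntegral.integral_of_le hκ, ← setIntegral_congr_set Ioo_ae_eq_Ioc, zero_mul,
    sub_zero, ← muK] at h
  rw [← h, integral_sub (f := fun v => _ + _) (i1.add i2) i3, integral_add i1 i2,
    integral_finsetSum _ fun i _ =>
      ((integrable_sH hW hη hκ hκ1 u x).apply_continuousLinearMap (e i)).const_inner (e i),
    flow_eq hκ, flD_apply hW hη hκ1]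
  congr 1
  · simp only [real_inner_comm u, integral_inner (integrable_pv hW hη hκ1 x),
      integral_inner ((integrable_sD hW hη hκ1 x).apply_continuousLinearMap x)]
  · refine Finset.sum_congr rfl fun i _ => ?_
    rw [flH_apply hW hη hκ hκ1,
      integral_inner ((integrable_sH hW hη hκ hκ1 u x).apply_continuousLinearMap (e i))]

end Vale.Agent.P347.Quarter
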